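import Vale.Agent.P073.TM489.B2
import Vale.Agent.P073.H894.TMFr

/-!
# P073 (helper248), block TM-S: the frontiers of the cells of the vertices and of the edges, and
`sep`

The field `sep` of `BoxCx.Sizes.BasicFacts` (and `frG`, `frV` again), and `specBasic`.
-/

open Set Metric Topology Filter

namespace P073.PA691.BoxCx

open P073 PR720
open Vale.Agent.P073.St (V)

variable {Λ : Set V} {v : V} {K : BoxCx Λ v}

namespace Sizes

variable (s : K.Sizes) {c : ℝ}

theorem beam_subset (hc : c ∈ Ioo (1/2:ℝ) 1) (e : K.G) : s.beam c e ⊆ K.nb e (2 * s.q e) :=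
  nb_mono e (by have := s.q_pos e; nlinarith [hc.2])

theorem nbo_subset (hc : c ∈ Ioo (1/2:ℝ) 1) (e : K.G) :
    K.nbo e (c * s.q e) ⊆ K.nb e (2 * s.q e) :=
  (nbo_subset_nb e _).trans (s.beam_subset hc e)

theorem ball_subset_two (hc : c ∈ Ioo (1/2:ℝ) 1) (i : K.W) :
    ball (K.w i) (c * s.r i) ⊆ closedBall (K.w i) (2 * s.r i) :=
  ball_subset_closedBall.trans
    (closedBall_subset_closedBall (by have := s.r_pos i; nlinarith [hc.2]))

theorem box_subset_two (hc : c ∈ Ioo (1/2:ℝ) 1) (i : K.W) :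
    s.box c i ⊆ closedBall (K.w i) (2 * s.r i) :=
  closedBall_subset_closedBall (by have := s.r_pos i; nlinarith [hc.2])

theorem abs_lt_of_ball {i : K.W} {x : V} {t : ℝ} (hx : x ∈ ball (K.w i) t) (k : Fin 3) :
    |x k - K.w i k| < t := by
  have := dist_le_pi_dist x (K.w i) k
  rw [Real.dist_eq] at this
  exact this.trans_lt hx

theorem abs_le_of_closedBall {i : K.W} {x : V} {t : ℝ} (hx : x ∈ closedBall (K.w i) t)
    (k : Fin 3) : |x k - K.w i k| ≤ t := by
  have := dist_le_pi_dist x (K.w i) k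
  rw [Real.dist_eq] at this
  exact this.trans hx

/-- a middle point of a tube is not in the cubes -/
theorem mid_notMem_ball {e : K.G} {x : V} (hx : x ∈ K.nb e (2 * s.q e))
    (h1 : s.ca e ≤ x (K.dir e)) (h2 : x (K.dir e) ≤ s.cb e) (i : K.W) :
    x ∉ closedBall (K.w i) (s.r i) := fun hi => by
  have hr := s.r_pos i
  have ha := s.r_pos (K.a e)
  have hb := s.r_pos (K.b e)
  have hd := abs_le.1 (abs_le_of_closedBall hi (K.dir e))
  unfold ca at h1
  unfold cb at h2
  rcases s.U_edge i e x (closedBall_subset_closedBall (by linarith) hi) hx with rfl | rfl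
  · linarith [hd.2]
  · linarith [hd.1]

/-- a middle point of a tube is in no other tube -/
theorem mid_eq {e e' : K.G} {x : V} (hx : x ∈ K.nb e (2 * s.q e))
    (h1 : s.ca e ≤ x (K.dir e)) (h2 : x (K.dir e) ≤ s.cb e) (hx' : x ∈ K.nb e' (2 * s.q e')) :
    e = e' := by
  by_contra hne
  obtain ⟨i, -, -, hi⟩ := s.tube_disj e e' hne x hx hx'
  have hr := s.r_pos i
  exact s.mid_notMem_ball hx h1 h2 i
    (closedBall_subset_closedBall (by linarith) (ball_subset_closedBall hi))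

/-- a middle point in `Hin` -/
theorem mid_Hin (hc : c ∈ Ioo (1/2:ℝ) 1) {e : K.G} {x : V} (hx : x ∈ K.nb e (2 * s.q e))
    (h1 : s.ca e ≤ x (K.dir e)) (h2 : x (K.dir e) ≤ s.cb e) (hH : x ∈ s.Hin c) :
    x ∈ K.nbo e (c * s.q e) := by
  rcases hH with hH | hH
  · obtain ⟨i, hi⟩ := mem_iUnion.1 hH
    have hr := s.r_pos i
    exact absurd (closedBall_subset_closedBall (by nlinarith [hc.2]) (ball_subset_closedBall hi))
      (s.mid_notMem_ball hx h1 h2 i)
  · obtain ⟨e', he'⟩ := mem_iUnion.1 hH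
    obtain rfl := s.mid_eq hx h1 h2 (s.nbo_subset hc e' he')
    exact he'

/-- a middle point is in no cell of a vertex -/
theorem mid_notMem_RV (hc : c ∈ Ioo (1/2:ℝ) 1) {e : K.G} {x : V} (hx : x ∈ s.beam c e)
    (h1 : s.ca e < x (K.dir e)) (h2 : x (K.dir e) < s.cb e) (i : K.W) : x ∉ s.RV c i := by
  have hx2 := s.beam_subset hc e hx
  rintro ((h | h) | h)
  · have hr := s.r_pos i
    exact s.mid_notMem_ball hx2 h1.le h2.le i
      (closedBall_subset_closedBall (by nlinarith [hc.2]) h)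
  · obtain ⟨e', he', hxb, hxd⟩ := mem_iUnion₂.1 h
    obtain rfl := s.mid_eq hx2 h1.le h2.le (s.beam_subset hc e' hxb)
    exact absurd hxd (not_le.2 h1)
  · obtain ⟨e', he', hxb, hxd⟩ := mem_iUnion₂.1 h
    obtain rfl := s.mid_eq hx2 h1.le h2.le (s.beam_subset hc e' hxb)
    exact absurd hxd (not_le.2 h2)

theorem isClosed_RG (hc : c ∈ Ioo (1/2:ℝ) 1) (e : K.G) : IsClosed (s.RG c e) := by
  rw [s.RG_eq hc e]
  exact isClosed_Icc

/-- the middle part of a beam is dense in the cell of the edge, in its direction -/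
theorem mem_closure_mid (hc : c ∈ Ioo (1/2:ℝ) 1) {e : K.G} {x : V} (hx : x ∈ s.RG c e) :
    x ∈ closure {y | y ∈ s.beam c e ∧ s.ca e < y (K.dir e) ∧ y (K.dir e) < s.cb e} := by
  obtain ⟨hxb, h1, h2⟩ := hx
  have hlt := s.ca_lt_cb e
  have ha := s.r_pos (K.a e)
  have hb := s.r_pos (K.b e)
  have hcq : 0 < c * s.q e := mul_pos (by have := hc.1; linarith) (s.q_pos e)
  set d := K.dir e with hd
  set m : ℝ := (s.ca e + s.cb e) / 2 with hm
  let g : ℝ → V := fun t => Function.update x d (x d + t * (m - x d))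
  have hg : Continuous g := continuous_const.update d (by fun_prop)
  have h0 : g 0 = x := by simp [g]
  have hcl : (0:ℝ) ∈ closure (Ioo (0:ℝ) 1) := by
    rw [closure_Ioo (by norm_num)]; exact ⟨le_rfl, zero_le_one⟩
  have := image_closure_subset_closure_image hg (mem_image_of_mem g hcl)
  rw [h0] at this
  refine closure_mono ?_ this
  rintro _ ⟨t, ht, rfl⟩
  have h3 : s.ca e < x d + t * (m - x d) := by
    have : s.ca e < m := by rw [hm]; linarith
    nlinarith [ht.1, ht.2]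
  have h4 : x d + t * (m - x d) < s.cb e := by
    have : m < s.cb e := by rw [hm]; linarith
    nlinarith [ht.1, ht.2]
  refine ⟨fun k => ?_, ?_, ?_⟩
  · by_cases hk : k = d
    · subst hk
      show K.w (K.a e) d - c * s.q e ≤ Function.update x d _ d ∧
        Function.update x d _ d ≤ K.w (K.b e) d + c * s.q e
      rw [Function.update_self]
      have h5 : K.w (K.a e) d ≤ s.ca e := by unfold ca; linarith
      have h6 : s.cb e ≤ K.w (K.b e) d := by unfold cb; linarith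
      constructor <;> linarith
    · show K.w (K.a e) k - c * s.q e ≤ Function.update x d _ k ∧
        Function.update x d _ k ≤ K.w (K.b e) k + c * s.q e
      rw [Function.update_of_ne hk]
      exact hxb k
  · show s.ca e < Function.update x d _ d
    rw [Function.update_self]; exact h3
  · show Function.update x d _ d < s.cb e
    rw [Function.update_self]; exact h4

theorem frontier_RG (hc : c ∈ Ioo (1/2:ℝ) 1) (hHi : interior (s.H c) = s.Hin c) (e : K.G) :
    frontier (s.RG c e) = {x ∈ s.RG c e | x ∈ s.F c ∨ x (K.dir e) = s.ca e ∨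
      x (K.dir e) = s.cb e} := by
  rw [(s.isClosed_RG hc e).frontier_eq]
  ext x
  constructor
  · rintro ⟨hx, hxi⟩
    refine ⟨hx, ?_⟩
    by_contra hcon
    push Not at hcon
    obtain ⟨h1, h2, h3⟩ := hcon
    have hxH : x ∈ s.Hin c := by
      by_contra h
      exact h1 ⟨s.RG_subset_H e hx, h⟩
    have hxn := s.mid_Hin hc (s.beam_subset hc e hx.1) hx.2.1 hx.2.2 hxH
    refine hxi (mem_interior.2 ⟨K.nbo e (c * s.q e) ∩ {y | s.ca e < y (K.dir e) ∧
      y (K.dir e) < s.cb e}, ?_, ?_, hxn, lt_of_le_of_ne hx.2.1 (Ne.symm h2),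
      lt_of_le_of_ne hx.2.2 h3⟩)
    · rintro y ⟨hy, hy1, hy2⟩
      exact ⟨nbo_subset_nb e _ hy, hy1.le, hy2.le⟩
    · exact (isOpen_nbo e _).inter ((isOpen_lt continuous_const (continuous_apply _)).inter
        (isOpen_lt (continuous_apply _) continuous_const))
  · rintro ⟨hx, h⟩
    refine ⟨hx, fun hxi => ?_⟩
    rcases h with h | h | h
    · exact h.2 (hHi ▸ interior_mono (s.RG_subset_H e) hxi)
    · have h1 := interior_mono (show s.RG c e ⊆ {y | s.ca e ≤ y (K.dir e)} from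
        fun y hy => hy.2.1) hxi
      have h2 : x ∈ {y : V | s.ca e < y (K.dir e)} := by
        have : {y : V | s.ca e ≤ y (K.dir e)} = (fun y : V => y (K.dir e)) ⁻¹' Ici (s.ca e) := rfl
        rw [this, ← (isOpenMap_eval (K.dir e)).preimage_interior_eq_interior_preimage
          (continuous_apply _), interior_Ici] at h1
        exact h1
      exact absurd h (ne_of_gt h2)
    · have h1 := interior_mono (show s.RG c e ⊆ {y | y (K.dir e) ≤ s.cb e} from
        fun y hy => hy.2.2) hxi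
      have h2 : x ∈ {y : V | y (K.dir e) < s.cb e} := by
        have : {y : V | y (K.dir e) ≤ s.cb e} = (fun y : V => y (K.dir e)) ⁻¹' Iic (s.cb e) := rfl
        rw [this, ← (isOpenMap_eval (K.dir e)).preimage_interior_eq_interior_preimage
          (continuous_apply _), interior_Iic] at h1
        exact h1
      exact absurd h (ne_of_lt h2)

/-- the cell of a vertex meets no cube of another vertex -/
theorem RV_ball (hc : c ∈ Ioo (1/2:ℝ) 1) {i j : K.W} {x : V} (hx : x ∈ s.RV c i)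
    (hj : x ∈ ball (K.w j) (c * s.r j)) : j = i := by
  have hj2 := s.ball_subset_two hc j hj
  have hrj := s.r_pos j
  rcases hx with (h | h) | h
  · by_contra hne
    exact disjoint_left.1 (s.U_disj j i hne) hj2 (s.box_subset_two hc i h)
  · obtain ⟨e, rfl, hxb, hxd⟩ := mem_iUnion₂.1 h
    rcases s.U_edge j e x hj2 (s.beam_subset hc e hxb) with rfl | rfl
    · rfl
    · exfalso
      have h1 := (abs_lt.1 (abs_lt_of_ball hj (K.dir e))).1
      have h2 := s.ca_lt_cb e
      unfold cb at h2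
      nlinarith [hc.2]
  · obtain ⟨e, rfl, hxb, hxd⟩ := mem_iUnion₂.1 h
    rcases s.U_edge j e x hj2 (s.beam_subset hc e hxb) with rfl | rfl
    · exfalso
      have h1 := (abs_lt.1 (abs_lt_of_ball hj (K.dir e))).2
      have h2 := s.ca_lt_cb e
      unfold ca at h2
      nlinarith [hc.2]
    · rfl

/-- the cell of a vertex in an open beam, away from the cubes -/
theorem RV_nbo (hc : c ∈ Ioo (1/2:ℝ) 1) {i : K.W} {e : K.G} {x : V} (hx : x ∈ s.RV c i)
    (he : x ∈ K.nb e (2 * s.q e)) (hb : ∀ j, x ∉ ball (K.w j) (c * s.r j)) :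
    (i = K.a e ∧ x (K.dir e) ≤ s.ca e) ∨ (i = K.b e ∧ s.cb e ≤ x (K.dir e)) := by
  have key : ∀ e', x ∈ s.beam c e' → e' = e := by
    intro e' he'
    by_contra hne
    obtain ⟨j, -, -, hj⟩ := s.tube_disj e' e hne x (s.beam_subset hc e' he') he
    have hrj := s.r_pos j
    exact hb j (ball_subset_ball (by nlinarith [hc.1]) hj)
  rcases hx with (h | h) | h
  · have hd := abs_le.1 (abs_le_of_closedBall h (K.dir e))
    have hr := s.r_pos i
    rcases s.U_edge i e x (s.box_subset_two hc i h) he with rfl | rfl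
    · left
      refine ⟨rfl, ?_⟩
      unfold ca
      nlinarith [hc.2, hd.2]
    · right
      refine ⟨rfl, ?_⟩
      unfold cb
      nlinarith [hc.2, hd.1]
  · obtain ⟨e', rfl, hxb, hxd⟩ := mem_iUnion₂.1 h
    obtain rfl := key e' hxb
    exact Or.inl ⟨rfl, hxd⟩
  · obtain ⟨e', rfl, hxb, hxd⟩ := mem_iUnion₂.1 h
    obtain rfl := key e' hxb
    exact Or.inr ⟨rfl, hxd⟩

/-- interior points of the cell of a vertex -/
theorem RV_interior (hc : c ∈ Ioo (1/2:ℝ) 1) {i : K.W} {x : V} (hx : x ∈ s.RV c i)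
    (hH : x ∈ s.Hin c) (ha : ∀ e, K.a e = i → x ∈ s.beam c e → x (K.dir e) ≠ s.ca e)
    (hb : ∀ e, K.b e = i → x ∈ s.beam c e → x (K.dir e) ≠ s.cb e) : x ∈ interior (s.RV c i) := by
  by_cases hB : ∃ j, x ∈ ball (K.w j) (c * s.r j)
  · obtain ⟨j, hj⟩ := hB
    obtain rfl := s.RV_ball hc hx hj
    exact mem_interior.2 ⟨_, fun y hy => Or.inl (Or.inl (ball_subset_closedBall hy)), isOpen_ball,
      hj⟩
  · push Not at hB
    rcases hH with hH | hH
    · obtain ⟨j, hj⟩ := mem_iUnion.1 hH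
      exact absurd hj (hB j)
    · obtain ⟨e, he⟩ := mem_iUnion.1 hH
      rcases s.RV_nbo hc hx (s.nbo_subset hc e he) hB with ⟨rfl, h⟩ | ⟨rfl, h⟩
      · have h1 := ha e rfl (nbo_subset_nb e _ he)
        refine mem_interior.2 ⟨K.nbo e (c * s.q e) ∩ {y | y (K.dir e) < s.ca e}, ?_,
          (isOpen_nbo e _).inter (isOpen_lt (continuous_apply _) continuous_const), he,
          lt_of_le_of_ne h h1⟩
        rintro y ⟨hy, hy1⟩
        exact Or.inl (Or.inr (mem_iUnion₂.2 ⟨e, rfl, nbo_subset_nb e _ hy, le_of_lt hy1⟩))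
      · have h1 := hb e rfl (nbo_subset_nb e _ he)
        refine mem_interior.2 ⟨K.nbo e (c * s.q e) ∩ {y | s.cb e < y (K.dir e)}, ?_,
          (isOpen_nbo e _).inter (isOpen_lt continuous_const (continuous_apply _)), he,
          lt_of_le_of_ne h (Ne.symm h1)⟩
        rintro y ⟨hy, hy1⟩
        exact Or.inr (mem_iUnion₂.2 ⟨e, rfl, nbo_subset_nb e _ hy, le_of_lt hy1⟩)

theorem RG_notMem_interior_RV (hc : c ∈ Ioo (1/2:ℝ) 1) {i : K.W} {e : K.G} {x : V}
    (hx : x ∈ s.RG c e) : x ∉ interior (s.RV c i) := fun hxi => by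
  obtain ⟨y, hy, hy1, hy2, hy3⟩ :=
    mem_closure_iff.1 (s.mem_closure_mid hc hx) _ isOpen_interior hxi
  exact s.mid_notMem_RV hc hy1 hy2 hy3 i (interior_subset hy)

theorem frontier_RV (hc : c ∈ Ioo (1/2:ℝ) 1) (hHi : interior (s.H c) = s.Hin c) (i : K.W) :
    frontier (s.RV c i) = {x ∈ s.RV c i | x ∈ s.F c ∨
      (∃ e, K.a e = i ∧ x ∈ s.beam c e ∧ x (K.dir e) = s.ca e) ∨
      ∃ e, K.b e = i ∧ x ∈ s.beam c e ∧ x (K.dir e) = s.cb e} := by
  rw [(s.isClosed_RV hc i).frontier_eq]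
  ext x
  constructor
  · rintro ⟨hx, hxi⟩
    refine ⟨hx, ?_⟩
    by_contra hcon
    push Not at hcon
    obtain ⟨h1, h2, h3⟩ := hcon
    have hxH : x ∈ s.Hin c := by
      by_contra h
      exact h1 ⟨s.RV_subset_H i hx, h⟩
    exact hxi (s.RV_interior hc hx hxH h2 h3)
  · rintro ⟨hx, h⟩
    refine ⟨hx, fun hxi => ?_⟩
    rcases h with h | ⟨e, -, hb, hd⟩ | ⟨e, -, hb, hd⟩
    · exact h.2 (hHi ▸ interior_mono (s.RV_subset_H i) hxi)
    · exact s.RG_notMem_interior_RV hc (e := e) ⟨hb, hd.ge, hd.le.trans (s.ca_lt_cb e).le⟩ hxi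
    · exact s.RG_notMem_interior_RV hc (e := e) ⟨hb, (s.ca_lt_cb e).le.trans hd.ge, hd.le⟩ hxi

/-- two cells of vertices meet in `F` -/
theorem RV_inter (hc : c ∈ Ioo (1/2:ℝ) 1) {i j : K.W} (hij : i ≠ j) {x : V} (hx : x ∈ s.RV c i)
    (hx' : x ∈ s.RV c j) : x ∈ s.F c := by
  refine ⟨s.RV_subset_H i hx, fun hH => ?_⟩
  by_cases hB : ∃ l, x ∈ ball (K.w l) (c * s.r l)
  · obtain ⟨l, hl⟩ := hB
    exact hij ((s.RV_ball hc hx hl).symm.trans (s.RV_ball hc hx' hl))
  · push Not at hB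
    rcases hH with hH | hH
    · obtain ⟨l, hl⟩ := mem_iUnion.1 hH
      exact hB l hl
    · obtain ⟨e, he⟩ := mem_iUnion.1 hH
      have he2 := s.nbo_subset hc e he
      have hlt := s.ca_lt_cb e
      rcases s.RV_nbo hc hx he2 hB with ⟨h1, h2⟩ | ⟨h1, h2⟩ <;>
        rcases s.RV_nbo hc hx' he2 hB with ⟨h3, h4⟩ | ⟨h3, h4⟩
      · exact hij (h1.trans h3.symm)
      · linarith
      · linarith
      · exact hij (h1.trans h3.symm)

/-- the cell of a vertex and the cell of an edge -/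
theorem RV_inter_RG (hc : c ∈ Ioo (1/2:ℝ) 1) {i : K.W} {e : K.G} {x : V} (hx : x ∈ s.RV c i)
    (hx' : x ∈ s.RG c e) : x ∈ s.F c ∨ (K.a e = i ∧ x (K.dir e) = s.ca e) ∨
      (K.b e = i ∧ x (K.dir e) = s.cb e) := by
  by_cases hF : x ∈ s.F c
  · exact Or.inl hF
  · right
    have he2 := s.beam_subset hc e hx'.1
    have hB : ∀ j, x ∉ ball (K.w j) (c * s.r j) := fun j hj => by
      have hr := s.r_pos j
      exact s.mid_notMem_ball he2 hx'.2.1 hx'.2.2 j
        (closedBall_subset_closedBall (by nlinarith [hc.2]) (ball_subset_closedBall hj))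
    rcases s.RV_nbo hc hx he2 hB with ⟨h1, h2⟩ | ⟨h1, h2⟩
    · exact Or.inl ⟨h1.symm, le_antisymm h2 hx'.2.1⟩
    · exact Or.inr ⟨h1.symm, le_antisymm hx'.2.2 h2⟩

theorem RT_inter_H {p : K.T} {x : V} (hx : x ∈ s.RT c p) (hH : x ∈ s.H c) : x ∈ s.F c :=
  ⟨hH, hx.2⟩

/-- **the cells meet in their frontiers** -/
theorem sep_of (hc : c ∈ Ioo (1/2:ℝ) 1) (hHi : interior (s.H c) = s.Hin c)
    (hfrT : ∀ p, frontier (s.RT c p) =
      {x ∈ s.RT c p | x ∈ s.F c ∨ ∃ k, x k = K.lo p k ∨ x k = K.hi p k}) :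
    ∀ i j, i ≠ j → s.R c i ∩ s.R c j ⊆ frontier (s.R c i) := by
  rintro (p | i | e) (p' | i' | e') hne x ⟨hx, hx'⟩
  · -- two tiles
    show x ∈ frontier (s.RT c p)
    rw [hfrT]
    refine ⟨hx, Or.inr ?_⟩
    by_contra hcon
    push Not at hcon
    refine K.dis p p' (fun h => hne (by rw [h])) x (fun k => ⟨?_, ?_⟩) hx'.1
    · exact lt_of_le_of_ne (hx.1.1 k) (Ne.symm (hcon k).1)
    · exact lt_of_le_of_ne (hx.1.2 k) (hcon k).2
  · show x ∈ frontier (s.RT c p)
    rw [hfrT]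
    exact ⟨hx, Or.inl (s.RT_inter_H hx (s.RV_subset_H i' hx'))⟩
  · show x ∈ frontier (s.RT c p)
    rw [hfrT]
    exact ⟨hx, Or.inl (s.RT_inter_H hx (s.RG_subset_H e' hx'))⟩
  · show x ∈ frontier (s.RV c i)
    rw [s.frontier_RV hc hHi]
    exact ⟨hx, Or.inl (s.RT_inter_H hx' (s.RV_subset_H i hx))⟩
  · show x ∈ frontier (s.RV c i)
    rw [s.frontier_RV hc hHi]
    exact ⟨hx, Or.inl (s.RV_inter hc (fun h => hne (by rw [h])) hx hx')⟩
  · show x ∈ frontier (s.RV c i)
    rw [s.frontier_RV hc hHi]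
    refine ⟨hx, ?_⟩
    rcases s.RV_inter_RG hc hx hx' with h | ⟨h1, h2⟩ | ⟨h1, h2⟩
    · exact Or.inl h
    · exact Or.inr (Or.inl ⟨e', h1, hx'.1, h2⟩)
    · exact Or.inr (Or.inr ⟨e', h1, hx'.1, h2⟩)
  · show x ∈ frontier (s.RG c e)
    rw [s.frontier_RG hc hHi]
    exact ⟨hx, Or.inl (s.RT_inter_H hx' (s.RG_subset_H e hx))⟩
  · show x ∈ frontier (s.RG c e)
    rw [s.frontier_RG hc hHi]
    refine ⟨hx, ?_⟩
    rcases s.RV_inter_RG hc hx' hx with h | ⟨h1, h2⟩ | ⟨h1, h2⟩
    · exact Or.inl h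
    · exact Or.inr (Or.inl h2)
    · exact Or.inr (Or.inr h2)
  · exact absurd (by rw [s.mid_eq (s.beam_subset hc e hx.1) hx.2.1 hx.2.2
      (s.beam_subset hc e' hx'.1)]) hne

end Sizes

end P073.PA691.BoxCx

namespace P073.TM248

open P073.PA691 Vale.Agent.P073.St

/-- **TM-S** -/
theorem specBasic : BoxCx.SpecBasic := fun _Λ _v _K s _c _ hne hc =>
  { H_sub := s.H_sub hc
    H_closed := s.H_closed hc
    H_interior := s.H_interior hc
    H_frontier := s.H_frontier hc
    H_int := s.H_int hc hne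
    H_ne := s.H_ne hc hne
    cover := s.cover hc
    lf := s.lf hc
    sep := s.sep_of hc (s.H_interior hc) (s.frT hc)
    frT := s.frT hc
    frV := s.frV hc
    frG := s.frG hc }

end P073.TM248
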